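import Vale.Agent.P144S.C.B12

/-!
Spinors with a source in the bulk on the graph of the cells: existence of the limit.
-/

set_option linter.all false

namespace Vale.Agent.P144S.C

open Finset Vale.Agent.P144 Vale.Agent.P144Q Filter Topology
open Vale.Agent.P144.H170 (Pt pt nf apos_nf ev_nf_of Mk SLim RS RS_ne VS phA phB phC phE F2)
open Vale.Agent.P144.H365 (ResNN)
open Vale.Agent.P144.H135 hiding Pos BLim bdc_of res_of bdc_smul res_smul
open Vale.Agent.P144Q.C (Pos BLim bdc_of res_of bdc_smul res_smul)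

section

variable {Ω : DomP} {ι κ : Type} [Fintype κ] {a : ι → ℝ} {N : ι → Finset Site} {r : κ → ι → Site}
  {ζ : κ → ℂ} {c : ι → AL.Cn} {z' : ℂ} {δ : ℝ} {A B C E Hs Hf : ι → Pt → ℝ}
  {l : Ultrafilter ι} (h : Pos Ω.toDom (l : Filter ι) a N r ζ c z' δ)
  (hB : ∀ᶠ k in (l : Filter ι), BD (N k) (fun p => r p k) (c k) (A k) (B k) (C k) (E k) (Hs k)
    (Hf k))

include h hB

/-- **The limit exists along ultrafilters.** -/
theorem blim_exists {u0 : Site} {QA QB QC QE : Pt → ℝ} {κ0 : ℂ} (K : PKr u0 QA QB QC QE κ0)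
    (hu : ∀ᶠ k in (l : Filter ι), (c k).1 = (c k).2 + u0) {S : κ → Prop}
    (hS : Metric.closedBall z' (24 * δ) ⊆ VS S F0 ζ w0) :
    ∃ q y, BLim Ω.toDom (l : Filter ι) a r ζ c z' δ A B C E S QA QB QC QE κ0 q y := by
  have hδ := h.δ0
  obtain ⟨Λ, hΛ, hL⟩ := apriori h hB K hu
  set L : ι → ℝ := fun k => Λ * a k with hLdef
  have hL0 : ∀ᶠ k in (l : Filter ι), 0 < L k := by
    filter_upwards [h.apos] with k hk
    simp only [hLdef]
    positivity
  set t := √Λ with ht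
  have ht0 : 0 < t := Real.sqrt_pos.2 hΛ
  have hsc : ∀ᶠ k in (l : Filter ι), sc a L k = t * a k := by
    filter_upwards [h.apos] with k hk
    unfold sc
    simp only [hLdef]
    rw [show a k * (Λ * a k) = Λ * (a k * a k) by ring, Real.sqrt_mul hΛ.le,
      Real.sqrt_mul_self hk.le]
  have hτ : Tendsto (fun k => a k / sc a L k) l (𝓝 (1 / t)) := by
    refine tendsto_const_nhds.congr' ?_
    filter_upwards [hsc, h.apos] with k k1 k2
    rw [k1]; field_simp
  obtain ⟨σ, q, y, F⟩ := flim h hB hL0 hL K hu hS hτ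
  obtain ⟨H, hH⟩ := hl_exists h hB hL0 hL F.slim
  have hbd := bdc_of h.δ0 F.qd hH
  have hrs := res_of h F.qd hH
  have e1 : ∀ z ∈ Ω.D, z ≠ z' → (fun z => ((t * σ : ℝ) : ℂ) * q z) z = ((t * σ : ℝ) : ℂ) * q z :=
    fun _ _ _ => rfl
  have hX : ∀ (X : ι → Pt → ℝ), ∀ᶠ k in (l : Filter ι), ∀ x,
      (a k)⁻¹ * (sg0 S (fun p => r p k) (c k) * X k x) = (t * σ) * ((sc a L k)⁻¹ * X k x) := by
    intro X
    filter_upwards [hsc, h.apos, F.σe] with k k1 k2 k3 x
    rw [k1, k3]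
    field_simp
  have hY : ∀ (G X Q : ι × Pt → ℝ) {z : ℂ} {w : ℂ} {φ : ℂ →L[ℝ] ℝ},
      Tendsto (fun kx : ι × Pt => (sc a L kx.1)⁻¹ * (sg0 S (fun p => r p kx.1) (c kx.1) *
        (G kx * X kx) - Q kx)) (nf (l : Filter ι) a z) (𝓝 (φ w)) →
      Tendsto (fun kx : ι × Pt => (a kx.1)⁻¹ * (sg0 S (fun p => r p kx.1) (c kx.1) *
        (G kx * X kx) - Q kx)) (nf (l : Filter ι) a z) (𝓝 (φ ((t : ℂ) * w))) := by
    intro G X Q z w φ hl
    have h1 := hl.const_mul t
    rw [← smul_eq_mul, ← map_smul, Complex.real_smul] at h1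
    refine h1.congr' ?_
    filter_upwards [ev_nf_of (l := (l : Filter ι)) (a := a) (z := z) hsc, apos_nf h.a0 z]
      with kx k1 k2
    rw [k1]
    field_simp
  refine ⟨fun z => ((t * σ : ℝ) : ℂ) * q z, fun z => (t : ℂ) * y z, ⟨F.qd.const_mul _,
    F.yd.const_mul _, fun z hz hzz => ?_, bdc_smul e1 h.zD hbd, fun p => ?_, ⟨?_, ?_, ?_, ?_⟩,
    fun z hz => hY _ _ _ (F.ylim.A z hz), fun z hz => hY _ _ _ (F.ylim.B z hz),
    fun z hz => hY _ _ _ (F.ylim.C z hz), fun z hz => hY _ _ _ (F.ylim.E z hz)⟩⟩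
  · rw [F.qy z hz hzz]
    have h1 : (σ : ℂ) * σ = 1 := by rw [← Complex.ofReal_mul, F.σ2]; simp
    have h2 : (t : ℂ) ≠ 0 := by exact_mod_cast ht0.ne'
    have h3 : z - z' ≠ 0 := sub_ne_zero.2 hzz
    push_cast
    have e2 : (t : ℂ) * (1 / (t : ℂ) * κ0 / (z - z') + y z) = κ0 / (z - z') + t * y z := by
      field_simp
    rw [← e2]
    linear_combination (t * (RS S F0 ζ w0 z * (1 / (t : ℂ) * κ0 / (z - z') + y z))) * h1
  · refine res_smul (t := t * σ) (h.dia p) ?_ e1 (hrs p)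
    intro h'
    have h1 := h.far p
    rw [h', sub_self, norm_zero] at h1
    linarith
  · exact xlim_smul (t * σ) F.slim.A (hX fun k x => eA (c k) (A k) x) fun z _ => rfl
  · exact xlim_smul (t * σ) F.slim.B (hX fun k x => eB (c k) (B k) x) fun z _ => rfl
  · exact xlim_smul (t * σ) F.slim.C (hX fun k x => eC (c k) (C k) x) fun z _ => rfl
  · exact xlim_smul (t * σ) F.slim.E (hX fun k x => eE (c k) (E k) x) fun z _ => rfl

end

theorem sbl : SBl := fun h hB _ _ _ _ _ _ K hu _ hS => blim_exists h hB K hu hS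

end Vale.Agent.P144S.C
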