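import Vale.Agent.P144S.C.K3
import Vale.Agent.P144S.C.B13

/-!
The kernels for the graph of the cells.
-/

namespace Vale.Agent.P144S.C

theorem k34P (hE : SEx) (hL : SLap) (hC : SCut) (hS : SSq) (hR : SSpr) : SK34P :=
  k34 hE hL hC hS hR sbl

end Vale.Agent.P144S.C
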