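import Vale.Agent.P144S.Defs
import Vale.Agent.P144Q.C.K34

/-!
Spinors with a source in the bulk on the graph of the cells: the data.
-/

set_option linter.all false

namespace Vale.Agent.P144S.C

open Vale.Agent.P144 Vale.Agent.P144Q Filter Topology
open Vale.Agent.P144.H170 (Pt tauF VS)
open Vale.Agent.P144.H135
open Vale.Agent.P144Q.C (Pos BLim)

/-- A spinor with the source `c'` and the disorders `r`. -/
structure BD {κ : Type} [Fintype κ] (P : Finset Site) (r : κ → Site) (c' : AL.Cn)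
    (A B C E Hs Hf : Site → ℝ) : Prop where
  lap : SLap
  cut : SCut
  sq : SSq
  nc : NC P
  cnr : c'.1 ∈ AL.cnr c'.2
  spr : Spr P (fun x => AL.cut1 c'.2 (x.1, x.2 + 1) * tauF r x)
    (fun x => chi (AL.sw x.1 x.2) c'.1) A B C E
  isH : IsH P A B C E Hs Hf
  sA : ((c'.2, c'.2) : AL.Cn) = c' → A c'.2 = 1
  sB : (((c'.2.1 + 1, c'.2.2), c'.2) : AL.Cn) = c' → B c'.2 = 1
  sC : (((c'.2.1, c'.2.2 + 1), c'.2) : AL.Cn) = c' → C c'.2 = 1
  sE : (((c'.2.1 + 1, c'.2.2 + 1), c'.2) : AL.Cn) = c' → E c'.2 = 1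

/-- The limit exists along ultrafilters. -/
def SBl : Prop := ∀ {Ω : DomP} {ι κ : Type} [Fintype κ] {a : ι → ℝ} {N : ι → Finset Site}
  {r : κ → ι → Site} {ζ : κ → ℂ} {c : ι → AL.Cn} {z' : ℂ} {δ : ℝ} {A B C E Hs Hf : ι → Pt → ℝ}
  {l : Ultrafilter ι}, Pos Ω.toDom (l : Filter ι) a N r ζ c z' δ →
  (∀ᶠ k in (l : Filter ι), BD (N k) (fun p => r p k) (c k) (A k) (B k) (C k) (E k) (Hs k) (Hf k)) →
  ∀ {u0 : Site} {QA QB QC QE : Pt → ℝ} {κ0 : ℂ}, PKr u0 QA QB QC QE κ0 →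
  (∀ᶠ k in (l : Filter ι), (c k).1 = (c k).2 + u0) → ∀ {S : κ → Prop},
  Metric.closedBall z' (24 * δ) ⊆ VS S F0 ζ w0 →
    ∃ q y, BLim Ω.toDom (l : Filter ι) a r ζ c z' δ A B C E S QA QB QC QE κ0 q y

end Vale.Agent.P144S.C
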