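import Vale.Agent.P144S.C.BD

/-!
The kernel of the fermions on the graph of the cells: the fields and the signs of the gauge.
-/

set_option linter.all false

namespace Vale.Agent.P144S.C

open Finset Vale.Agent.P144 Filter Topology
open Vale.Agent.P144.H170 (Pt pt tauF rM tauR_rM RS VS Mk gs)
open Vale.Agent.P144.H135 (eA eB eC eE rz gr sg0 F0 w0 v0 PKr pt_add pt_smul gr_sq)
open Vale.Agent.P144Q (Dom Fam0)
open Vale.Agent.P144Q.C (Geo BLim Pos)

section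

variable {κ : Type} [Fintype κ] (P : Finset Site) (r : κ → Site) (c' : AL.Cn)

/-- The fields of the kernel. -/
noncomputable def kA : Site → ℝ := xA P (c'.2 ::ₘ rM r) {c'.1} (QQ P (rM r) 0)
noncomputable def kB : Site → ℝ := xB P (c'.2 ::ₘ rM r) {c'.1} (QQ P (rM r) 0)
noncomputable def kC : Site → ℝ := xC P (c'.2 ::ₘ rM r) {c'.1} (QQ P (rM r) 0)
noncomputable def kE : Site → ℝ := xD P (c'.2 ::ₘ rM r) {c'.1} (QQ P (rM r) 0)

theorem Wf_two' (R : Multiset Site) (c c' : AL.Cn) :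
    Wf P R [c, c'] = AL.ep c c' * (QQ P (c.2 ::ₘ c'.2 ::ₘ R) (c.1 ::ₘ {c'.1}) / QQ P R 0) := by
  have e1 : AL.el [c, c'] = AL.ep c c' := by simp [AL.el]
  have e2 : AL.fcs [c, c'] + R = c.2 ::ₘ c'.2 ::ₘ R := by
    rw [AL.fcs_cons, AL.fcs_cons, Multiset.cons_add, Multiset.cons_add]
    have : AL.fcs [] = 0 := rfl
    rw [this, zero_add]
  have e3 : AL.sps [c, c'] = c.1 ::ₘ {c'.1} := rfl
  unfold Wf
  rw [e1, e2, e3, mul_div_assoc]

theorem src_one' (R : Multiset Site) (g v : Site) :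
    QQ P (g ::ₘ g ::ₘ R) (v ::ₘ {v}) / QQ P R 0 = 1 := by
  have h0 : 0 < QQ P R 0 := by
    unfold QQ AL.NG
    refine sum_pos (fun T _ => ?_) ⟨∅, by simp⟩
    rw [AL.spn_zero, one_mul]
    refine AL.WW_pos (fun x => ?_) (fun x => ?_) T
    · rw [abs_mul]
      refine mul_le_one₀ ?_ (abs_nonneg _) (AL.cutS_abs R x)
      unfold ih; split_ifs <;> simp
    · unfold iv; split_ifs <;> simp
  have h1 : QQ P (g ::ₘ g ::ₘ R) (v ::ₘ {v}) = QQ P R 0 := by
    have : (v ::ₘ ({v} : Multiset Site)) = v ::ₘ v ::ₘ 0 := rfl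
    rw [this]
    unfold QQ
    rw [AL.NG_congr (a' := fun x => ih P x * AL.cutS R x) (b' := iv P) (fun x _ => by
      rw [AL.cutS_cons, AL.cutS_cons, ← mul_assoc (AL.cut1 g x), AL.cut1_sq, one_mul])
      (fun _ _ => rfl)]
    unfold AL.NG
    refine sum_congr rfl fun T _ => ?_
    rw [AL.spn_cons, AL.spn_cons, ← mul_assoc, tv_sq, one_mul]
  rw [h1, div_self h0.ne']

theorem eA_Wf {x : Site} (hx : x ∈ Vx P) :
    eA c' (kA P r c') x = Wf P (rM r) [(x, x), c'] := by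
  rw [Wf_two']
  unfold eA kA xA
  rw [if_pos hx]

theorem eB_Wf {x : Site} (hx : ((x.1 + 1, x.2) : Site) ∈ Vx P) :
    eB c' (kB P r c') x = Wf P (rM r) [((x.1 + 1, x.2), x), c'] := by
  rw [Wf_two']
  unfold eB kB xB
  rw [if_pos hx]

theorem eC_Wf {x : Site} (hx : ((x.1, x.2 + 1) : Site) ∈ Vx P) :
    eC c' (kC P r c') x = Wf P (rM r) [((x.1, x.2 + 1), x), c'] := by
  rw [Wf_two']
  unfold eC kC xC
  rw [if_pos hx]

theorem cnr_Vx {P : Finset Site} {f v : Site} (hf : f ∈ P) (hv : v ∈ AL.cnr f) : v ∈ Vx P :=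
  mem_biUnion.2 ⟨f, hf, hv⟩

end

/-- The corner of type `u0` at the face `fl a z + w`. -/
noncomputable def cw (z : ℂ) (w u0 : Site) (a : ℝ) : AL.Cn := (fl a z + w + u0, fl a z + w)

theorem cw_cnr {u0 : Site} (hu0 : u0 ∈ AL.cnr 0) (z : ℂ) (w : Site) (a : ℝ) :
    (cw z w u0 a).1 ∈ AL.cnr (cw z w u0 a).2 := by
  rw [AL.mem_cnr] at hu0 ⊢
  unfold cw
  simp only [Prod.fst_zero, Prod.snd_zero, zero_add] at hu0
  rcases hu0 with rfl | rfl | rfl | rfl
  · left; ext <;> simp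
  · right; left; ext <;> simp
  · right; right; left; ext <;> simp
  · right; right; right; ext <;> simp

theorem flw (z : ℂ) (w : Site) :
    Tendsto (fun a : ℝ => pt a (fl a z + w)) (𝓝[>] 0) (𝓝 z) := by
  have h1 : Tendsto (fun a : ℝ => ((a : ℝ) : ℂ) * pt 1 w) (𝓝[>] 0) (𝓝 (((0 : ℝ) : ℂ) * pt 1 w)) :=
    ((Complex.continuous_ofReal.tendsto _).mono_left nhdsWithin_le_nhds).mul_const _
  have h2 := (AL.flt z).add h1
  rw [Complex.ofReal_zero, zero_mul, add_zero] at h2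
  refine h2.congr fun a => ?_
  rw [pt_add, pt_smul a w]

theorem fl_far {x y : ℝ} (h : y < x) (t : ℝ) :
    ∀ᶠ a in 𝓝[>] (0 : ℝ), t < (⌊x / a⌋ : ℝ) - ⌊y / a⌋ := by
  have h1 : Tendsto (fun a : ℝ => (x - y) * a⁻¹) (𝓝[>] 0) atTop :=
    tendsto_inv_nhdsGT_zero.const_mul_atTop (sub_pos.2 h)
  filter_upwards [h1.eventually_gt_atTop (t + 1)] with a ha
  have h2 := Int.floor_le (y / a)
  have h3 := Int.lt_floor_add_one (x / a)
  have e : (x - y) * a⁻¹ = x / a - y / a := by ring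
  linarith

/-- The gauge at a fixed point is eventually constant. -/
theorem gr_ev {κ : Type} [Fintype κ] (S : κ → Prop) (ζ : κ → ℂ) (z : ℂ) (t : ℝ) :
    ∃ σ : ℝ, σ * σ = 1 ∧ ∀ᶠ a in 𝓝[>] (0 : ℝ),
      gr S (fun p => rz ζ p a) (((fl a z).1 : ℝ) + t) = σ := by
  classical
  have key : ∀ p, ∃ σ : ℝ, ∀ᶠ a in 𝓝[>] (0 : ℝ),
      H170.sg (((fl a z).1 : ℝ) + t - (rz ζ p a).1 - 1 / 2) = σ := by
    intro p
    rcases lt_trichotomy (ζ p).re z.re with h | h | h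
    · refine ⟨1, ?_⟩
      filter_upwards [fl_far h (1 / 2 - t)] with a ha
      refine H170.sg_pos ?_
      simp only [rz, fl]
      linarith
    · refine ⟨H170.sg (t - 1 / 2), Eventually.of_forall fun a => ?_⟩
      congr 1
      simp only [rz, fl, h]
      ring
    · refine ⟨-1, ?_⟩
      filter_upwards [fl_far h (t - 1 / 2)] with a ha
      refine H170.sg_neg ?_
      simp only [rz, fl]
      linarith
  choose σ hσ using key
  have h1 : ∀ᶠ a in 𝓝[>] (0 : ℝ), gr S (fun p => rz ζ p a) (((fl a z).1 : ℝ) + t) =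
      ∏ p, if S p then σ p else 1 := by
    filter_upwards [eventually_all.2 hσ] with a ha
    unfold gr gs
    simp only [Finset.univ_eq_empty, Finset.prod_empty, mul_one]
    refine prod_congr rfl fun p _ => ?_
    rw [ha p]
  refine ⟨_, ?_, h1⟩
  obtain ⟨a, ha⟩ := h1.exists
  rw [← ha]
  exact gr_sq _ _ _

theorem sg0_cw {κ : Type} [Fintype κ] (S : κ → Prop) (r : κ → Site) (z : ℂ) (w u0 : Site) (a : ℝ) :
    sg0 S r (cw z w u0 a) =
      gr S r (((fl a z).1 : ℝ) + (w.1 + if u0.1 = 0 then 1 / 4 else 3 / 4)) := by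
  unfold sg0 gr cw
  by_cases h : u0.1 = 0
  · rw [if_pos (by simp [h]), if_pos h]
    congr 1
    simp only [Prod.fst_add]
    push_cast
    ring
  · rw [if_neg (by simpa using h), if_neg h]
    congr 1
    simp only [Prod.fst_add]
    push_cast
    ring

/-- The gauge is the same on both sides of a vertical edge. -/
theorem gr_edge {κ : Type} [Fintype κ] (S : κ → Prop) (r : κ → Site) (i : ℤ) :
    gr S r ((i : ℝ) + (1 + 1 / 4)) = gr S r ((i : ℝ) + 3 / 4) := by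
  classical
  unfold gr gs
  simp only [Finset.univ_eq_empty, Finset.prod_empty, mul_one]
  refine prod_congr rfl fun p _ => ?_
  rcases lt_or_ge i (r p).1 with h1 | h1
  · have h' : (i : ℝ) + 1 ≤ (r p).1 := by exact_mod_cast h1
    rw [H170.sg_neg (by linarith), H170.sg_neg (by linarith)]
  · have h' : ((r p).1 : ℝ) ≤ i := by exact_mod_cast h1
    rw [H170.sg_pos (by linarith), H170.sg_pos (by linarith)]

/-- The limit of the kernel exists along ultrafilters. -/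
def SBk : Prop := ∀ (Ω : DomP) (P : ℝ → Finset Site), FamP Ω.D P → ∀ (κ : Type) [Fintype κ]
  (ζ : κ → ℂ) (z' : ℂ) (δ : ℝ), Geo Ω.toDom ζ z' δ → ∀ U : Ultrafilter ℝ, (U : Filter ℝ) ≤ 𝓝[>] 0 →
  ∀ w u0 : Site, u0 ∈ AL.cnr 0 → ∀ (QA QB QC QE : Pt → ℝ) (κ0 : ℂ), PKr u0 QA QB QC QE κ0 →
  ∀ S : κ → Prop, Metric.closedBall z' (24 * δ) ⊆ VS S F0 ζ w0 →
    ∃ q y, BLim Ω.toDom (U : Filter ℝ) (fun a => a) (rz ζ) ζ (cw z' w u0) z' δ
      (fun a => kA (P a) (fun p => rz ζ p a) (cw z' w u0 a))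
      (fun a => kB (P a) (fun p => rz ζ p a) (cw z' w u0 a))
      (fun a => kC (P a) (fun p => rz ζ p a) (cw z' w u0 a))
      (fun a => kE (P a) (fun p => rz ζ p a) (cw z' w u0 a)) S QA QB QC QE κ0 q y

theorem posw {Ω : Dom} {P : ℝ → Finset Site} {κ : Type} [Fintype κ] {ζ : κ → ℂ} {z' : ℂ} {δ : ℝ}
    (G : Geo Ω ζ z' δ) (hL : Fam0 Ω.D P) {U : Filter ℝ} (hU : U ≤ 𝓝[>] 0) (w u0 : Site) :
    Pos Ω U (fun a => a) P (rz ζ) ζ (cw z' w u0) z' δ where
  a0 := hU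
  hN := hL.mono hU
  hr := fun p => (AL.flt (ζ p)).mono_left hU
  hg := (flw z' w).mono_left hU
  inj := G.inj
  dia := G.dia
  δ0 := G.δ0
  ball := G.ball
  far := G.far

/-- The spinor data of the kernel. -/
theorem exists_BD (hE : SEx) (hL : SLap) (hC : SCut) (hS : SSq) (hR : SSpr) {κ : Type} [Fintype κ]
    {P : Finset Site} (r : κ → Site) {c' : AL.Cn} (hc : c'.1 ∈ AL.cnr c'.2) (hN : c'.2 ∈ P)
    (hK : NC P) : ∃ Hs Hf, BD P r c' (kA P r c') (kB P r c') (kC P r c') (kE P r c') Hs Hf := by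
  have hV := cnr_Vx hN hc
  have h := hR P (c'.2 ::ₘ rM r) {c'.1} (QQ P (rM r) 0) (by simpa using hV)
  obtain ⟨Hs, Hf, hH⟩ := hE _ _ _ _ _ _ _ h hK
  have e1 : AL.tauR (c'.2 ::ₘ rM r) = fun x => AL.cut1 c'.2 (x.1, x.2 + 1) * tauF r x := by
    funext x
    unfold AL.tauR
    rw [AL.cutS_cons, ← tauR_rM]
    rfl
  have e2 : AL.theA {c'.1} = fun x => chi (AL.sw x.1 x.2) c'.1 := by
    funext x
    unfold AL.theA AL.chiM
    simp
  rw [e1, e2] at h
  refine ⟨Hs, Hf, hL, hC, hS, hK, hc, h, hH, fun he => ?_, fun he => ?_, fun he => ?_,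
    fun he => ?_⟩
  · have h1 : c'.1 = c'.2 := by rw [← he]
    unfold kA xA
    rw [if_pos (by rw [← h1]; exact hV), h1]
    exact src_one' _ _ _ _
  · have h1 : c'.1 = (c'.2.1 + 1, c'.2.2) := by rw [← he]
    unfold kB xB
    rw [if_pos (by rw [← h1]; exact hV), h1]
    exact src_one' _ _ _ _
  · have h1 : c'.1 = (c'.2.1, c'.2.2 + 1) := by rw [← he]
    unfold kC xC
    rw [if_pos (by rw [← h1]; exact hV), h1]
    exact src_one' _ _ _ _
  · have h1 : c'.1 = (c'.2.1 + 1, c'.2.2 + 1) := by rw [← he]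
    unfold kE xD
    rw [if_pos (by rw [← h1]; exact hV), h1]
    exact src_one' _ _ _ _

theorem sbk (hE : SEx) (hL : SLap) (hC : SCut) (hS : SSq) (hR : SSpr) (hb : SBl) : SBk := by
  intro Ω P hP κ _ ζ z' δ G U hU w u0 hu0 QA QB QC QE κ0 K S hS'
  have hpos := posw G hP.1 hU w u0
  have hmem : ∀ᶠ a in (U : Filter ℝ), (cw z' w u0 a).2 ∈ P a ∧ NC (P a) :=
    (hpos.hN.mem hpos.a0 hpos.zD hpos.hg).and (hP.2.filter_mono hU)
  have hex : ∀ a, ∃ Hs Hf : Site → ℝ, (cw z' w u0 a).2 ∈ P a ∧ NC (P a) →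
      BD (P a) (fun p => rz ζ p a) (cw z' w u0 a)
      (kA (P a) (fun p => rz ζ p a) (cw z' w u0 a)) (kB (P a) (fun p => rz ζ p a) (cw z' w u0 a))
      (kC (P a) (fun p => rz ζ p a) (cw z' w u0 a)) (kE (P a) (fun p => rz ζ p a) (cw z' w u0 a))
      Hs Hf := by
    intro a
    by_cases h : (cw z' w u0 a).2 ∈ P a ∧ NC (P a)
    · obtain ⟨Hs, Hf, hB⟩ := exists_BD hE hL hC hS hR (fun p => rz ζ p a)
        (cw_cnr hu0 z' w a) h.1 h.2
      exact ⟨Hs, Hf, fun _ => hB⟩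
    · exact ⟨0, 0, fun h' => absurd h' h⟩
  choose Hs Hf hB using hex
  exact hb hpos (hmem.mono fun a ha => hB a ha) K (Eventually.of_forall fun a => rfl) hS'

end Vale.Agent.P144S.C
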