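import Vale.Agent.P144S.C.K0

/-!
The limits of the kernel of the fermions on the graph of the cells.
-/

set_option linter.all false

namespace Vale.Agent.P144S.C

open Finset Vale.Agent.P144 Filter Topology
open Vale.Agent.P144.H170 (Pt pt rM RS VS Mk gs phA phB phC notMem_Mk of_xlim)
open Vale.Agent.P144.H135 (eA eB eC eE rz gr sg0 F0 w0 v0 PKr gr_sq gr_eq seq_nf lim_of_ultra
  exists_ker rM_empty)
open Vale.Agent.P144Q (Dom Fam0 Good0 Appr)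
open Vale.Agent.P144Q.C (Geo BLim Pos geo_of nM_of blim_unique)

variable {Ω : Dom} {P : ℝ → Finset Site}

theorem in_ev (hL : Fam0 Ω.D P) {z : ℂ} (hz : z ∈ Ω.D) (w : Site) :
    ∀ᶠ a in 𝓝[>] (0:ℝ), fl a z + w ∈ P a := hL.mem AL.idt hz (flw z w)

/-- The corners of an energy. -/
theorem cp_eq (p : Pts) (k : Fin p.m) (b : Bool) : ∃ w u0 : Site,
    (u0 = (0, 0) ∨ u0 = (1, 0) ∨ u0 = (0, 1)) ∧ ∀ a, cp p a k b = cw (p.y k) w u0 a := by
  cases b
  · refine ⟨0, dir (p.j k), ?_, fun a => ?_⟩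
    · unfold dir; split_ifs <;> simp
    · unfold cp ce cw; simp
  · refine ⟨dir (p.j k), (0, 0), Or.inl rfl, fun a => ?_⟩
    unfold cp ce cw
    simp only [if_true]
    congr 1
    ext <;> simp

theorem cnr_of {u0 : Site} (h : u0 = (0, 0) ∨ u0 = (1, 0) ∨ u0 = (0, 1)) : u0 ∈ AL.cnr 0 := by
  rw [AL.mem_cnr]
  rcases h with rfl | rfl | rfl <;> simp

/-- The limit of the kernel at the target. -/
theorem tgt {κ : Type} [Fintype κ] {ζ : κ → ℂ} (hL : Fam0 Ω.D P) {z : ℂ} (w : Site) {u0 : Site}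
    (h0 : u0 = (0, 0) ∨ u0 = (1, 0) ∨ u0 = (0, 1)) {S' : κ → Prop} (hS' : z ∈ VS S' F0 ζ w0) :
    ∃ (φ : ℂ →L[ℝ] ℝ) (s : ℝ), ∀ {z' : ℂ} (_ : z ∈ (Ω.D \ {z'}) \ Mk ζ w0) {c : ℝ → AL.Cn}
      {U : Filter ℝ} (_ : U ≤ 𝓝[>] 0) {δ : ℝ} {S : κ → Prop} {QA QB QC QE : Pt → ℝ}
      {κ0 : ℂ} {q Y : ℂ → ℂ} (_ : BLim Ω U (fun a => a) (rz ζ) ζ c z' δ
      (fun a => kA (P a) (fun i => rz ζ i a) (c a)) (fun a => kB (P a) (fun i => rz ζ i a) (c a))
      (fun a => kC (P a) (fun i => rz ζ i a) (c a)) (fun a => kE (P a) (fun i => rz ζ i a) (c a))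
      S QA QB QC QE κ0 q Y),
      Tendsto (fun a : ℝ => gr S' (fun i => rz ζ i a) (((fl a z).1 : ℝ) + s) *
        (a⁻¹ * (sg0 S (fun i => rz ζ i a) (c a) *
          Wf (P a) (rM fun i => rz ζ i a) [cw z w u0 a, c a]))) U
        (𝓝 (φ (q z / RS S' F0 ζ w0 z))) := by
  have hr : ∀ {U : Filter ℝ}, U ≤ 𝓝[>] 0 → ∀ i, Tendsto (fun a => pt a (rz ζ i a)) U (𝓝 (ζ i)) :=
    fun hU i => (AL.flt (ζ i)).mono_left hU
  have eg : ∀ (a s : ℝ), gs S' F0 (fun i => rz ζ i a) (fun q => v0 q a)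
      (((fl a z + w).1 : ℝ) + s) = gr S' (fun i => rz ζ i a) (((fl a z).1 : ℝ) + (w.1 + s)) := by
    intro a s
    rw [gr_eq]
    congr 1
    simp only [Prod.fst_add]
    push_cast
    ring
  rcases h0 with rfl | rfl | rfl
  · refine ⟨phA, w.1 + 1 / 4, fun {z'} hz {c U} hU {δ S QA QB QC QE κ0 q Y} hB => ?_⟩
    have h1 := (of_xlim (v := v0) (ω := w0) hU (hr hU) (fun q => q.elim) hS' (Or.inl rfl) _ _
      (X := fun k x => k⁻¹ * (sg0 S (fun i => rz ζ i k) (c k) *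
        eA (c k) (kA (P k) (fun i => rz ζ i k) (c k)) x))
      (hB.slim.A _ hz)).comp (seq_nf ((flw z w).mono_left hU))
    refine h1.congr' ?_
    filter_upwards [(in_ev hL hz.1.1 w).filter_mono hU] with a ha
    simp only [Function.comp_apply]
    rw [eA_Wf _ _ _ (cnr_Vx ha (by simp [AL.mem_cnr])), eg]
    have e0 : cw z w (0, 0) a = (fl a z + w, fl a z + w) := by
      unfold cw; congr 1; ext <;> simp
    rw [e0]
  · refine ⟨phB, w.1 + 3 / 4, fun {z'} hz {c U} hU {δ S QA QB QC QE κ0 q Y} hB => ?_⟩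
    have h1 := (of_xlim (v := v0) (ω := w0) hU (hr hU) (fun q => q.elim) hS' (Or.inr rfl) _ _
      (X := fun k x => k⁻¹ * (sg0 S (fun i => rz ζ i k) (c k) *
        eB (c k) (kB (P k) (fun i => rz ζ i k) (c k)) x))
      (hB.slim.B _ hz)).comp (seq_nf ((flw z w).mono_left hU))
    refine h1.congr' ?_
    filter_upwards [(in_ev hL hz.1.1 w).filter_mono hU] with a ha
    simp only [Function.comp_apply]
    rw [eB_Wf _ _ _ (cnr_Vx ha (by simp [AL.mem_cnr])), eg]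
    have e0 : cw z w (1, 0) a = (((fl a z + w).1 + 1, (fl a z + w).2), fl a z + w) := by
      unfold cw; congr 1; ext <;> simp
    rw [e0]
  · refine ⟨phC, w.1 + 1 / 4, fun {z'} hz {c U} hU {δ S QA QB QC QE κ0 q Y} hB => ?_⟩
    have h1 := (of_xlim (v := v0) (ω := w0) hU (hr hU) (fun q => q.elim) hS' (Or.inl rfl) _ _
      (X := fun k x => k⁻¹ * (sg0 S (fun i => rz ζ i k) (c k) *
        eC (c k) (kC (P k) (fun i => rz ζ i k) (c k)) x))
      (hB.slim.C _ hz)).comp (seq_nf ((flw z w).mono_left hU))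
    refine h1.congr' ?_
    filter_upwards [(in_ev hL hz.1.1 w).filter_mono hU] with a ha
    simp only [Function.comp_apply]
    rw [eC_Wf _ _ _ (cnr_Vx ha (by simp [AL.mem_cnr])), eg]
    have e0 : cw z w (0, 1) a = (((fl a z + w).1, (fl a z + w).2 + 1), fl a z + w) := by
      unfold cw; congr 1; ext <;> simp
    rw [e0]

theorem Rq_eq (p : Pts) (a : ℝ) : Rq p a = rM fun i => rz p.x i a := rfl

/-- **Two energies.** -/
theorem k3 (hb : SBk) {Ω : DomP} (hL : FamP Ω.D P) {p : Pts} (hp : Good0 Ω.D p) : K3P P p := by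
  intro k l hkl b b'
  obtain ⟨w, u0, h0, cx⟩ := cp_eq p k b
  obtain ⟨w1, u1, h1, cy⟩ := cp_eq p l b'
  obtain ⟨δ, G⟩ := geo_of (Ω := Ω.toDom) hp l
  obtain ⟨S, hS⟩ := G.pat hL.1
  obtain ⟨QA, QB, QC, QE, κ0, K⟩ := exists_ker u1 (cnr_of h1)
  have hzM := nM_of (Ω := Ω.toDom) hp k
  have hz : p.y k ∈ (Ω.D \ {p.y l}) \ Mk p.x w0 :=
    ⟨⟨hp.2.1 k, fun h => hkl (Sum.inr_injective (hp.2.2 (by simpa using h)))⟩, hzM⟩
  obtain ⟨S', S'', hS'⟩ := H170.exists_pattern (ζ := p.x) (ω := w0) (z := p.y k)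
    (notMem_Mk.1 hzM).1 (fun q => q.elim)
  have e'' : S'' = F0 := funext fun q => q.elim
  rw [e''] at hS'
  obtain ⟨φ, s, hφ⟩ := tgt (Ω := Ω.toDom) hL.1 w h0 hS'
  obtain ⟨σ, hσ, eσ⟩ := gr_ev S' p.x (p.y k) s
  obtain ⟨σ', hσ', eσ'⟩ := gr_ev S p.x (p.y l) (w1.1 + if u1.1 = 0 then 1 / 4 else 3 / 4)
  have key : ∀ (U : Ultrafilter ℝ) (_ : (U : Filter ℝ) ≤ 𝓝[>] 0) (q Y : ℂ → ℂ),
      BLim Ω.toDom (U : Filter ℝ) (fun a => a) (rz p.x) p.x (cw (p.y l) w1 u1) (p.y l) δ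
      (fun a => kA (P a) (fun i => rz p.x i a) (cw (p.y l) w1 u1 a))
      (fun a => kB (P a) (fun i => rz p.x i a) (cw (p.y l) w1 u1 a))
      (fun a => kC (P a) (fun i => rz p.x i a) (cw (p.y l) w1 u1 a))
      (fun a => kE (P a) (fun i => rz p.x i a) (cw (p.y l) w1 u1 a)) S QA QB QC QE κ0 q Y →
      Tendsto (fun a : ℝ => Wf (P a) (Rq p a) [cp p a k b, cp p a l b'] / a) U
        (𝓝 (σ * σ' * φ (q (p.y k) / RS S' F0 p.x w0 (p.y k)))) := by
    intro U hU q Y hB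
    refine ((hφ hz hU hB).const_mul (σ * σ')).congr' ?_
    filter_upwards [eσ.filter_mono hU, eσ'.filter_mono hU] with a g1 g2
    rw [sg0_cw, g1, g2, cx, cy, Rq_eq, div_eq_mul_inv]
    generalize Wf (P a) (rM fun i => rz p.x i a) [cw (p.y k) w u0 a, cw (p.y l) w1 u1 a] = W
    linear_combination (a⁻¹ * W * (σ' * σ')) * hσ + (a⁻¹ * W) * hσ'
  refine lim_of_ultra fun U V hU hV => ?_
  obtain ⟨q, Y, hB⟩ := hb Ω P hL _ _ _ _ G U hU w1 u1 (cnr_of h1) _ _ _ _ _ K S hS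
  obtain ⟨q', Y', hB'⟩ := hb Ω P hL _ _ _ _ G V hV w1 u1 (cnr_of h1) _ _ _ _ _ K S hS
  obtain ⟨hq, -⟩ := blim_unique (posw G hL.1 hU w1 u1) hS hB hB'
  refine ⟨_, key U hU q Y hB, ?_⟩
  rw [hq _ hz.1.1 hz.1.2]
  exact key V hV q' Y' hB'

/-- **The two corners of an energy.** -/
theorem k4 (hb : SBk) {Ω : DomP} (hL : FamP Ω.D P) {p : Pts} (hp : Good0 Ω.D p) : K4P P p := by
  intro k
  obtain ⟨δ, G⟩ := geo_of (Ω := Ω.toDom) hp k
  obtain ⟨S, hS⟩ := G.pat hL.1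
  have h00 : ((0, 0) : Site) ∈ AL.cnr 0 := cnr_of (Or.inl rfl)
  obtain ⟨QA, QB, QC, QE, κ0, K⟩ := exists_ker (0, 0) h00
  have G0 := G.empty
  have hδ := G.δ0
  have hS0 : Metric.closedBall (p.y k) (24 * δ) ⊆ VS F0 F0 w0 w0 := fun z _ =>
    ⟨fun q => q.elim, fun q => q.elim⟩
  have hzo : p.y k ∈ Metric.ball (p.y k) (24 * δ) := Metric.mem_ball_self (by positivity)
  set w : Site := dir (p.j k) with hw
  have cy : ∀ a, cp p a k true = cw (p.y k) w (0, 0) a := fun a => by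
    unfold cp ce cw
    simp only [if_true]
    congr 1
    ext <;> simp [hw]
  have hin : ∀ᶠ a in 𝓝[>] (0:ℝ), fl a (p.y k) ∈ P a :=
    Appr.mem AL.idt hL.1 (hp.2.1 k) (AL.flt _)
  -- the limit for one family of disorders
  obtain ⟨φ, Q, hφ⟩ : ∃ (φ : ℂ →L[ℝ] ℝ) (Q : ℝ), ∀ {κ : Type} [Fintype κ] {ζ : κ → ℂ}
      {S : κ → Prop} {U : Filter ℝ} (_ : U ≤ 𝓝[>] 0) {q Y : ℂ → ℂ}
      (_ : BLim Ω.toDom U (fun a => a) (rz ζ) ζ (cw (p.y k) w (0, 0)) (p.y k) δ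
      (fun a => kA (P a) (fun i => rz ζ i a) (cw (p.y k) w (0, 0) a))
      (fun a => kB (P a) (fun i => rz ζ i a) (cw (p.y k) w (0, 0) a))
      (fun a => kC (P a) (fun i => rz ζ i a) (cw (p.y k) w (0, 0) a))
      (fun a => kE (P a) (fun i => rz ζ i a) (cw (p.y k) w (0, 0) a)) S QA QB QC QE κ0 q Y),
      Tendsto (fun a : ℝ => a⁻¹ * (Wf (P a) (rM fun i => rz ζ i a)
        [cp p a k false, cp p a k true] - Q)) U (𝓝 (φ (Y (p.y k)))) := by
    by_cases hj : p.j k = 0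
    · have e : w = (1, 0) := by rw [hw]; unfold dir; rw [if_pos hj]
      refine ⟨phB, QB (-w), fun {κ _ ζ S U} hU {q Y} hB => ?_⟩
      refine ((hB.B _ hzo).comp (seq_nf ((AL.flt (p.y k)).mono_left hU))).congr' ?_
      filter_upwards [hin.filter_mono hU] with a ha
      simp only [Function.comp_apply]
      have e1 : cp p a k false = (((fl a (p.y k)).1 + 1, (fl a (p.y k)).2), fl a (p.y k)) := by
        unfold cp ce
        rw [← hw, e]
        simp only [Bool.false_eq_true, if_false]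
        congr 1
        ext <;> simp
      have e2 : fl a (p.y k) - (cw (p.y k) w (0, 0) a).2 = -w := by unfold cw; simp
      rw [eB_Wf _ _ _ (cnr_Vx ha (by simp [AL.mem_cnr])), sg0_cw, e1, cy, e2, ← mul_assoc,
        if_pos rfl]
      have e3 : ((w.1 : ℤ) : ℝ) = 1 := by rw [e]; simp
      rw [e3, gr_edge, gr_sq, one_mul]
    · have e : w = (0, 1) := by rw [hw]; unfold dir; rw [if_neg hj]
      refine ⟨phC, QC (-w), fun {κ _ ζ S U} hU {q Y} hB => ?_⟩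
      refine ((hB.C _ hzo).comp (seq_nf ((AL.flt (p.y k)).mono_left hU))).congr' ?_
      filter_upwards [hin.filter_mono hU] with a ha
      simp only [Function.comp_apply]
      have e1 : cp p a k false = (((fl a (p.y k)).1, (fl a (p.y k)).2 + 1), fl a (p.y k)) := by
        unfold cp ce
        rw [← hw, e]
        simp only [Bool.false_eq_true, if_false]
        congr 1
        ext <;> simp
      have e2 : fl a (p.y k) - (cw (p.y k) w (0, 0) a).2 = -w := by unfold cw; simp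
      rw [eC_Wf _ _ _ (cnr_Vx ha (by simp [AL.mem_cnr])), sg0_cw, e1, cy, e2, ← mul_assoc,
        if_pos rfl]
      have e3 : ((w.1 : ℤ) : ℝ) = 0 := by rw [e]; simp
      rw [e3, zero_add, gr_sq, one_mul]
  have key : ∀ (U : Ultrafilter ℝ) (_ : (U : Filter ℝ) ≤ 𝓝[>] 0) {c c0 : ℝ},
      Tendsto (fun a : ℝ => a⁻¹ * (Wf (P a) (rM fun i => rz p.x i a)
        [cp p a k false, cp p a k true] - Q)) U (𝓝 c) →
      Tendsto (fun a : ℝ => a⁻¹ * (Wf (P a) (rM fun i => rz w0 i a)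
        [cp p a k false, cp p a k true] - Q)) U (𝓝 c0) →
      Tendsto (fun a : ℝ => (Wf (P a) (Rq p a) [cp p a k false, cp p a k true] -
        Wf (P a) 0 [cp p a k false, cp p a k true]) / a) U (𝓝 (c - c0)) := by
    intro U hU c c0 h1 h2
    refine (h1.sub h2).congr fun a => ?_
    rw [rM_empty, Rq_eq]
    ring
  refine lim_of_ultra fun U V hU hV => ?_
  obtain ⟨q, Y, hB⟩ := hb Ω P hL _ _ _ _ G U hU w _ h00 _ _ _ _ _ K S hS
  obtain ⟨q', Y', hB'⟩ := hb Ω P hL _ _ _ _ G V hV w _ h00 _ _ _ _ _ K S hS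
  obtain ⟨q0, Y0, hB0⟩ := hb Ω P hL _ _ _ _ G0 U hU w _ h00 _ _ _ _ _ K F0 hS0
  obtain ⟨q0', Y0', hB0'⟩ := hb Ω P hL _ _ _ _ G0 V hV w _ h00 _ _ _ _ _ K F0 hS0
  obtain ⟨-, hY⟩ := blim_unique (posw G hL.1 hU w (0, 0)) hS hB hB'
  obtain ⟨-, hY0⟩ := blim_unique (posw G0 hL.1 hU w (0, 0)) hS0 hB0 hB0'
  refine ⟨_, key U hU (hφ hU hB) (hφ hU hB0), ?_⟩
  rw [hY _ hzo, hY0 _ hzo]
  exact key V hV (hφ hV hB') (hφ hV hB0')

/-- **The kernels.** -/
theorem k34 (hE : SEx) (hL : SLap) (hC : SCut) (hS : SSq) (hR : SSpr) (hb : SBl) : SK34P :=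
  fun _ _ h _ hp => ⟨k3 (sbk hE hL hC hS hR hb) h hp, k4 (sbk hE hL hC hS hR hb) h hp⟩

end Vale.Agent.P144S.C
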