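import Vale.Agent.P144S.C.BD

/-!
Spinors with a source in the bulk on the graph of the cells: masses and `ℓ²` bounds.
-/

set_option linter.all false

namespace Vale.Agent.P144S.C

open Finset Vale.Agent.P144 Vale.Agent.P144Q Filter Topology
open Vale.Agent.P144.H170 (Pt pt bx mem_bx bx_mono tauF L2ball lap apos_nf ev_nf_of HOn)
open Vale.Agent.P144.H135
open Vale.Agent.P144Q.C (Pos)

theorem sub_Vx {P : Finset Site} {x : Site} (hx : x ∈ P) : x ∈ Vx P :=
  mem_biUnion.2 ⟨x, hx, AL.mem_cnr.2 (Or.inl rfl)⟩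

variable {Ω : Dom} {ι κ : Type} [Fintype κ] {a : ι → ℝ} {N : ι → Finset Site} {r : κ → ι → Site}
  {ζ : κ → ℂ} {c : ι → AL.Cn} {z' : ℂ} {δ : ℝ} {A B C E Hs Hf : ι → Pt → ℝ} {L : ι → ℝ}
  {l : Filter ι}

theorem hon_all (h : Pos Ω l a N r ζ c z' δ)
    (hB : ∀ᶠ k in l, BD (N k) (fun p => r p k) (c k) (A k) (B k) (C k) (E k) (Hs k) (Hf k))
    (hL0 : ∀ᶠ k in l, 0 < L k) (U : Set ℂ) : HOn l a U (fA a L c A) (fB a L c B) (fC a L c C)
      (fE a L c E) (fun k x => Hs k x / L k) (fun k x => Hf k x / L k) := by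
  intro z _
  filter_upwards [ev_nf_of (l := l) (a := a) (z := z) hB, apos_nf h.a0 z,
    ev_nf_of (l := l) (a := a) (z := z) hL0] with kx k1 k2 k3
  obtain ⟨k, i, j⟩ := kx
  simp only at k1 k2 k3
  have e : ∀ y : ℝ, a k * ((sc a L k)⁻¹ * y) ^ 2 = y ^ 2 / L k := by
    intro y
    unfold sc
    rw [mul_pow, inv_pow, Real.sq_sqrt (by positivity)]
    field_simp
  simp only [fA, fB, fC, fE, e, Prod.mk_add_mk, add_zero]
  unfold eA eB eC eE
  simp only [ep_sq2]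
  have g1 := k1.isH.h.a i j
  have g2 := k1.isH.h.b i j
  have g3 := k1.isH.h.c i j
  have g4 := k1.isH.h.d i j
  rw [← g1, ← g2, ← g3, ← g4]
  refine ⟨by ring, by ring, by ring, by ring⟩

variable (h : Pos Ω l a N r ζ c z' δ)
  (hB : ∀ᶠ k in l, BD (N k) (fun p => r p k) (c k) (A k) (B k) (C k) (E k) (Hs k) (Hf k))
  (hL0 : ∀ᶠ k in l, 0 < L k) (hL : ∀ᶠ k in l, Ann δ (a k) (c k) (Hs k) (Hf k) (L k))

include h hB hL0 hL

/-- The masses outside a box. -/
theorem masses : ∀ᶠ k in l, ∀ T : Finset Site,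
    ∑ w ∈ T, |lap (fun x => (1 - CT (c k).2 (2 * nb δ (a k)) x) * Hs k x) w| ≤ 900000 * L k ∧
    ∑ w ∈ T, |lap (fun x => (1 - CT (c k).2 (2 * nb δ (a k)) x) * Hf k x) w| ≤ 900000 * L k := by
  classical
  have hc : ∀ᶠ k in l, (c k).1 ∈ AL.cnr (c k).2 := by
    filter_upwards [hB] with k hk
    exact hk.cnr
  filter_upwards [h.exc hc, hB, hL0, hL, h.apos, h.asmall (show 0 < δ / 100 from by
    have := h.δ0; positivity), h.inDia, h.rfar, h.gclose (show 0 < δ from h.δ0)]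
    with k k1 k2 k3 k4 k5 k6 k7 k8 k9 T
  have hδ := h.δ0
  have n0 : 0 < nb δ (a k) := nb_pos k5 (by linarith)
  have n1 := nb_le hδ k5
  have key := k2.cut _ _ _ _ _ _ _ _ _ _ _ _ (c k).2 _ _ k2.spr k2.isH k2.nc k1 n0 k3.le ?_ ?_ ?_ ?_
    (fun x h1 h2 => (k4 x h1 h2).1) (fun x h1 h2 => (k4 x h1 h2).2) T
  · simp only [H170.lap_AL] at key
    have p1 : 0 ≤ ∑ w ∈ T, |lap (fun x => (1 - CT (c k).2 (2 * nb δ (a k)) x) * Hs k x) w| :=
      sum_nonneg fun _ _ => abs_nonneg _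
    have p2 : 0 ≤ ∑ w ∈ T, |lap (fun x => (1 - CT (c k).2 (2 * nb δ (a k)) x) * Hf k x) w| :=
      sum_nonneg fun _ _ => abs_nonneg _
    constructor <;> linarith
  · intro v hv
    rw [mem_singleton] at hv
    rw [hv, mem_bx]
    rcases AL.mem_cnr.1 k2.cnr with h6 | h6 | h6 | h6 <;> rw [h6] <;> simp <;> lia
  · intro f hf
    rw [Finset.mem_sdiff, Finset.mem_insert] at hf
    rcases hf.1 with h1 | h1
    · rw [h1]; exact H170.self_mem_bx _ _
    · exact absurd h1 hf.2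
  · intro f hf hbx
    rw [mem_image] at hf
    obtain ⟨p, -, rfl⟩ := hf
    have h1 := norm_of_bx k5 hbx
    have h2 := k8 p
    push_cast at h1
    linarith
  · intro x hx
    refine k7 x ?_
    have h1 := norm_of_bx k5 hx
    have h2 := norm_sub_le_norm_sub_add_norm_sub (pt (a k) x) (pt (a k) (c k).2) z'
    push_cast at h1
    linarith

/-- `ℓ²` bounds outside the ball. -/
theorem l2_out {z : ℂ} {ρ : ℝ} (hρ : 0 < ρ) (hz : ∀ w, ‖w - z‖ ≤ ρ → 9 * δ < ‖w - z'‖ ∧ w ∈ Ω.D)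
    {X : ι → Pt → ℝ} (hX : ∀ k x, X k x ^ 2 ≤ A k x ^ 2 + B k x ^ 2 + C k x ^ 2 + E k x ^ 2) :
    L2ball l a z ρ (8 * 1036800000 * ρ) (fun k x => (√(a k * L k))⁻¹ * X k x) := by
  classical
  have hδ := h.δ0
  set X' : ι → Pt → ℝ := fun k x => if x ∉ bx (c k).2 (4 * nb δ (a k) + 2) ∧ x ∈ N k then
    (√(L k))⁻¹ * X k x else 0 with hX'
  have hbox : ∀ᶠ k in l, ∀ c' n, ∑ x ∈ bx c' n, X' k x ^ 2 ≤ 1036800000 * (n + 2) := by
    filter_upwards [masses h hB hL0 hL, hB, hL0, h.apos, h.asmall (show 0 < δ / 100 from by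
      positivity)] with k k1 k2 k3 k5 k6 c' n
    have n0 : 0 < nb δ (a k) := nb_pos k5 (by linarith)
    have hf0 : ∀ x ∉ Vx (N k), Hf k x = 0 := fun x hx => k2.isH.zero x fun h' => hx (sub_Vx h')
    have e0 : ∀ x ∉ bx (c k).2 (4 * nb δ (a k)), 1 - CT (c k).2 (2 * nb δ (a k)) x = 1 := by
      intro x hx
      rw [CT_zero (by lia) fun h' => hx (bx_mono (by lia) h'), sub_zero]
    have key := k2.sq _ _ _ _ _ _ _ _ _ (c k).2 (4 * nb δ (a k))
      (fun x => (1 - CT (c k).2 (2 * nb δ (a k)) x) * Hs k x)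
      (fun x => (1 - CT (c k).2 (2 * nb δ (a k)) x) * Hf k x) (900000 * L k) k2.spr k2.isH
      (fun x hx => by simp only [k2.isH.h.out x hx, mul_zero])
      (fun x hx => by simp only [hf0 x hx, mul_zero])
      (fun x hx => by simp only [e0 x hx, one_mul]) (fun x hx => by simp only [e0 x hx, one_mul])
      (fun T => by simp only [H170.lap_AL]; exact (k1 T).1)
      (fun T => by simp only [H170.lap_AL]; exact (k1 T).2) c' n
      ((bx c' n).filter fun x => x ∉ bx (c k).2 (4 * nb δ (a k) + 2) ∧ x ∈ N k)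
      (fun x hx => ⟨(mem_filter.1 hx).1, (mem_filter.1 hx).2⟩)
    have e1 : ∑ x ∈ bx c' n, X' k x ^ 2 = (L k)⁻¹ *
        ∑ x ∈ (bx c' n).filter (fun x => x ∉ bx (c k).2 (4 * nb δ (a k) + 2) ∧ x ∈ N k), X k x ^ 2 := by
      rw [mul_sum, sum_filter]
      refine sum_congr rfl fun x _ => ?_
      simp only [hX']
      split_ifs
      · rw [mul_pow, inv_pow, Real.sq_sqrt k3.le]
      · norm_num
    rw [e1]
    have h2 := (sum_le_sum fun x (_ : x ∈ (bx c' n).filter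
      (fun x => x ∉ bx (c k).2 (4 * nb δ (a k) + 2) ∧ x ∈ N k)) => hX k x).trans key
    calc (L k)⁻¹ * ∑ x ∈ (bx c' n).filter (fun x => x ∉ bx (c k).2 (4 * nb δ (a k) + 2) ∧ x ∈ N k),
          X k x ^ 2 ≤ (L k)⁻¹ * (1152 * (900000 * L k) * (n + 2)) :=
          mul_le_mul_of_nonneg_left h2 (by positivity)
      _ = 1036800000 * (n + 2) := by field_simp; norm_num
  have h1 := H170.l2_of_box h.a0 (by norm_num) hbox z hρ
  filter_upwards [h1, h.apos, h.asmall (show 0 < δ / 100 from by positivity),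
    h.gclose (show 0 < δ / 100 from by positivity), hL0,
    h.hN.cpt (isCompact_closedBall z ρ) fun w hw => (hz w (by
      rwa [Metric.mem_closedBall, dist_eq_norm] at hw)).2] with k k1 k5 k6 k7 k8 k9 S hS
  refine le_trans (le_of_eq ?_) (k1 S hS)
  congr 1
  refine sum_congr rfl fun x hx => ?_
  have h2 := (hz _ (hS x hx)).1
  have h3 : x ∉ bx (c k).2 (4 * nb δ (a k) + 2) := by
    intro hbx
    have h4 := norm_of_bx k5 hbx
    have h5 := norm_sub_le_norm_sub_add_norm_sub (pt (a k) x) (pt (a k) (c k).2) z'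
    have n1 := nb_le hδ k5
    push_cast at h4
    linarith
  simp only [hX', if_pos (And.intro h3 (k9 x (by
    rw [Metric.mem_closedBall, dist_eq_norm]; exact hS x hx)))]
  rw [Real.sqrt_mul k5.le, mul_inv]
  ring

end Vale.Agent.P144S.C
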