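import Vale.Agent.P144S.C.Z1

/-!
Spinors with a source in the bulk on the graph of the cells: the limit of the `H`-function.
-/

set_option linter.all false

namespace Vale.Agent.P144S.C

open Finset Vale.Agent.P144 Vale.Agent.P144Q Filter Topology
open Vale.Agent.P144.H170 (Pt pt bx mem_bx bx_mono tauF lap lap_AL436 nf ev_nf apos_nf ev_nf_of Mk
  Mk_finite SLim gb green_near mem_dia_ev notMem_Mk nf_neBot)
open Vale.Agent.P144.H135 hiding Pos HL Uh Uh_sub Uh_open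
open Vale.Agent.P144.H436 (nn green)
open Vale.Agent.P144Q.C (Pos HL Uh Uh_sub Uh_open exists_adj out_bx)

section

variable {P : Finset Site} {A B C E Hs Hf : Site → ℝ} {g : Site} {n m : ℕ} {L : ℝ}

theorem hat_zero (hH : IsH P A B C E Hs Hf) {x : Site}
    (hx : ∀ y : Site, |y.1 - x.1| ≤ 2 → |y.2 - x.2| ≤ 2 → y ∉ P) : hat P Hs x = 0 := by
  have k : ∀ y : Site, |y.1 - x.1| ≤ 1 → |y.2 - x.2| ≤ 1 → Hs y = 0 := fun y h1 h2 =>
    hH.h.out y fun hy => by
      obtain ⟨f, hf, hy⟩ := mem_biUnion.1 hy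
      rw [abs_le] at h1 h2
      refine hx f ?_ ?_ hf <;> rw [abs_le] <;>
        rcases AL.mem_cnr.1 hy with e | e | e | e <;> rw [e] at h1 h2 <;> lia
  unfold hat
  rw [k x (by simp) (by simp), k (x.1 + 1, x.2) (by simp) (by simp),
    k (x.1 - 1, x.2) (by simp) (by simp), k (x.1, x.2 + 1) (by simp) (by simp),
    k (x.1, x.2 - 1) (by simp) (by simp)]
  norm_num

theorem hat_eq {x : Site} (hx : ∀ y : Site, |y.1 - x.1| ≤ 1 → |y.2 - x.2| ≤ 1 → y ∈ P) :
    hat P Hs x = Hs x := by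
  unfold hat ih iv
  rw [if_pos (Or.inl (hx x (by simp) (by simp))), if_pos (Or.inl (hx x (by simp) (by simp))),
    if_pos (Or.inl (hx (x.1 - 1, x.2) (by simp) (by simp))),
    if_pos (Or.inl (hx (x.1, x.2 - 1) (by simp) (by simp)))]
  ring

theorem hat_div (x : Site) : hat P (fun y => Hs y / L) x = hat P Hs x / L := by
  unfold hat; ring

theorem Hf_le (hH : IsH P A B C E Hs Hf) (x : Site) : Hf x ≤ Hs x := by
  have := hH.h.a x.1 x.2
  nlinarith [sq_nonneg (A (x.1, x.2))]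

/-- The negative part of `Hf` is subharmonic at regular faces. -/
theorem lap_neg (hz : ∀ f ∉ P, Hf f = 0) {x : Site} (hr : x ∈ P → AL.lap Hf x ≤ 0) :
    0 ≤ AL.lap (fun y => max (-Hf y) 0) x := by
  have a1 := fun y => le_max_left (-Hf y) 0
  have a2 := fun y => le_max_right (-Hf y) 0
  unfold AL.lap
  rcases le_total (-Hf x) 0 with h0 | h0
  · simp only [max_eq_right h0]
    linarith [a2 (x.1 + 1, x.2), a2 (x.1 - 1, x.2), a2 (x.1, x.2 + 1), a2 (x.1, x.2 - 1)]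
  · by_cases hin : x ∈ P
    · have := hr hin
      unfold AL.lap at this
      simp only [max_eq_left h0]
      linarith [a1 (x.1 + 1, x.2), a1 (x.1 - 1, x.2), a1 (x.1, x.2 + 1), a1 (x.1, x.2 - 1)]
    · simp only [hz x hin, neg_zero, max_self]
      linarith [a2 (x.1 + 1, x.2), a2 (x.1 - 1, x.2), a2 (x.1, x.2 + 1), a2 (x.1, x.2 - 1)]

/-- Upper bound of the modification of `Hs` outside the box. -/
theorem hat_out (hH : IsH P A B C E Hs Hf) (hΛ : ∀ x ∈ P, |x.1| + |x.2| + 4 ≤ (m : ℤ))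
    (hn : 0 < n) (hL0 : 0 ≤ L) (hin : ∀ x ∈ bx g (n + 1), x ∈ P)
    (hsub : ∀ x, x ∉ bx g n → 0 ≤ AL.lap (hat P Hs) x)
    (hLs : ∀ x ∈ bx g n, x ∉ bx g (n - 1) → |Hs x| ≤ L) {x : Site} (hxg : x ∉ bx g n) :
    hat P Hs x ≤ L := by
  have far : ∀ x, x ∉ dia m → hat P Hs x = 0 := fun x hx => hat_zero hH fun y h1 h2 hy => by
    obtain ⟨i, j⟩ := x
    rw [AL.mem_dia] at hx
    have h0 := hΛ y hy
    have h3 := abs_sub_abs_le_abs_sub i y.1
    have h4 := abs_sub_abs_le_abs_sub j y.2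
    rw [abs_sub_comm] at h3 h4
    simp only at h1 h2
    lia
  by_cases hx : x ∈ dia m
  swap
  · rw [far x hx]; exact hL0
  have key := H436.max_principle' (Λ := (dia m).filter fun y => y ∉ bx g n)
    (u := fun y => hat P Hs y - L) (x := x) (fun y hy => ?_) (fun y hy hn' => ?_)
    (mem_filter.2 ⟨hx, hxg⟩)
  · linarith
  · have e : H436.lap (fun y => hat P Hs y - L) y = H436.lap (hat P Hs) y := by
      unfold H436.lap; ring
    rw [e, ← lap_AL436]
    exact hsub y (mem_filter.1 hy).2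
  · obtain ⟨z, hz, hyz⟩ := exists_adj hn'
    by_cases hyb : y ∈ bx g n
    · rw [hat_eq fun w h1 h2 => hin w ?_]
      · linarith [(abs_le.1 (hLs y hyb (adj_box hn (mem_filter.1 hz).2 hyz))).2]
      · rw [mem_bx] at hyb ⊢
        rw [abs_le] at h1 h2
        push_cast
        lia
    · rw [far y fun h => hy (mem_filter.2 ⟨h, hyb⟩)]
      linarith

/-- Lower bound of `Hf` outside the box. -/
theorem Hf_out {κ : Type} [Fintype κ] {r : κ → Site} (hz : ∀ f ∉ P, Hf f = 0)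
    (hΛ : ∀ x ∈ P, x ∈ dia m) (hn : 0 < n) (hL0 : 0 ≤ L) {M : ℝ} (hM : 0 ≤ M)
    (hsup : ∀ x ∈ P, x ∉ bx g n → (∀ p, x ≠ r p) → AL.lap Hf x ≤ 0)
    (hup : ∀ p, AL.lap Hf (r p) ≤ M) (hLf : ∀ x ∈ bx g n, x ∉ bx g (n - 1) → |Hf x| ≤ L)
    {x : Site} (hxg : x ∉ bx g n) : -Hf x ≤ L + M * ∑ p, green (dia m) (r p) x := by
  classical
  have hG0 : ∀ y, 0 ≤ ∑ p, M * green (dia m) (r p) y := fun y =>
    sum_nonneg fun p _ => mul_nonneg hM (H436.green_nonneg _ _ _)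
  set S : Finset Site := P.filter fun f => f ∉ bx g n with hS
  have hout : ∀ y, y ∉ S → y ∉ bx g n → Hf y = 0 := fun y hy hyg =>
    hz y fun h => hy (mem_filter.2 ⟨h, hyg⟩)
  rw [mul_sum]
  by_cases hx : x ∈ S
  swap
  · rw [hout x hx hxg]; linarith [hG0 x]
  have key := H436.max_principle' (Λ := S)
    (u := fun y => -Hf y - L - ∑ p, M * green (dia m) (r p) y) (x := x) (fun y hy => ?_)
    (fun y hy hn' => ?_) hx
  · linarith
  · obtain ⟨hy0, hyg⟩ := mem_filter.1 hy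
    have e1 : H436.lap (fun y => -Hf y - L - ∑ p, M * green (dia m) (r p) y) y =
        -H436.lap Hf y - H436.lap (fun y => ∑ p, M * green (dia m) (r p) y) y := by
      unfold H436.lap; ring
    have e2 : H436.lap (fun y => ∑ p, M * green (dia m) (r p) y) y =
        -∑ p, M * (if y = r p then (1:ℝ) else 0) := by
      rw [H436.lap_sum, ← sum_neg_distrib]
      refine sum_congr rfl fun p _ => ?_
      rw [H436.lap_mul, H436.lap_green (hΛ y hy0)]; ring
    rw [e1, e2, sub_neg_eq_add, ← lap_AL436]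
    by_cases hp : ∀ p, y ≠ r p
    · have e3 : 0 ≤ ∑ k, M * (if y = r k then (1:ℝ) else 0) :=
        sum_nonneg fun k _ => by split_ifs <;> simp [hM]
      linarith [hsup y hy0 hyg hp]
    · push Not at hp
      obtain ⟨q, hq⟩ := hp
      have h1 := single_le_sum (f := fun k => M * (if y = r k then (1:ℝ) else 0))
        (fun k _ => by split_ifs <;> simp [hM]) (mem_univ q)
      simp only [if_pos hq, mul_one] at h1
      have h2 := hup q
      rw [← hq] at h2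
      linarith
  · obtain ⟨z, hz, hyz⟩ := exists_adj hn'
    by_cases hyb : y ∈ bx g n
    · linarith [(abs_le.1 (hLf y hyb (adj_box hn (mem_filter.1 hz).2 hyz))).1, hG0 y]
    · rw [hout y hy hyb]; linarith [hG0 y]

end

variable {Ω : DomP} {ι κ : Type} [Fintype κ] {a : ι → ℝ} {N : ι → Finset Site} {r : κ → ι → Site}
  {ζ : κ → ℂ} {c : ι → AL.Cn} {z' : ℂ} {δ : ℝ} {A B C E Hs Hf : ι → Pt → ℝ} {L : ι → ℝ}

section

variable {l : Filter ι} (h : Pos Ω.toDom l a N r ζ c z' δ)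
  (hB : ∀ᶠ k in l, BD (N k) (fun p => r p k) (c k) (A k) (B k) (C k) (E k) (Hs k) (Hf k))
  (hL0 : ∀ᶠ k in l, 0 < L k) (hL : ∀ᶠ k in l, Ann δ (a k) (c k) (Hs k) (Hf k) (L k))

include h hB

/-- The spinor is regular outside the box, away from the disorders. -/
theorem reg_ev : ∀ᶠ k in l, ∀ x, x ∉ bx (c k).2 (nb δ (a k)) →
    0 ≤ AL.lap (hat (N k) (Hs k)) x ∧
      ((∀ p, x ≠ r p k) → x ∈ N k → AL.lap (Hf k) x ≤ 0) := by
  classical
  filter_upwards [h.exc (hB.mono fun k hk => hk.cnr), hB, h.apos, h.asmall h.δ0]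
    with k k1 k2 k5 k6 x hx
  have n0 : 0 < nb δ (a k) := nb_pos k5 k6
  have hP : x ∉ ({(c k).1} : Finset Site) := fun hv => hx (by
    rw [mem_singleton] at hv
    rw [hv, mem_bx]
    rcases AL.mem_cnr.1 k2.cnr with h6 | h6 | h6 | h6 <;> rw [h6] <;> simp <;> lia)
  obtain ⟨g1, g2, g3⟩ := k2.lap _ _ _ _ _ _ _ _ _ k2.spr k2.isH x
  refine ⟨(sub_nonneg.2 g1).trans (g2 (k1.θc x.1 x.2 hP)),
    fun h1 h2 => g3 h2 (k1.τc x.1 x.2 fun hy => ?_)⟩
  rw [mem_insert, mem_image] at hy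
  rcases hy with e | ⟨p, -, e⟩
  · exact hx (by rw [← e]; exact H170.self_mem_bx _ _)
  · exact h1 p e.symm

include hL0 hL

/-- Bounds of the `H`-function outside the box. -/
theorem H_ev : ∀ᶠ k in l, ∀ x, x ∉ bx (c k).2 (nb δ (a k)) → hat (N k) (Hs k) x / L k ≤ 1 ∧
    -(Hf k x / L k) ≤ 1 + 900000 * ∑ p, green (dia (nn (a k))) (r p k) x ∧
      Hf k x / L k ≤ Hs k x / L k ∧ Hs k x / L k ≤ hat (N k) (Hs k) x / L k := by
  have hδ := h.δ0
  filter_upwards [reg_ev h hB, hB, hL0, hL, h.apos,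
    h.asmall (show 0 < δ / 100 from by positivity), h.rfar, h.gclose hδ, h.inDia,
    h.hN.big h.a0 Ω.small 4, masses h hB hL0 hL] with k k1 k2 k3 k4 k5 k6 k8 k9 k7 k10 k11 x hxg
  have n0 : 0 < nb δ (a k) := nb_pos k5 (by linarith)
  have n1' := nb_le hδ k5
  have hsub : nb δ (a k) ≤ 8 * nb δ (a k) := by lia
  refine ⟨?_, ?_, div_le_div_of_nonneg_right (Hf_le k2.isH x) k3.le,
    div_le_div_of_nonneg_right (k2.lap _ _ _ _ _ _ _ _ _ k2.spr k2.isH x).1 k3.le⟩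
  · rw [div_le_one k3]
    refine hat_out k2.isH k10 n0 k3.le (fun y hy => k7 y ?_) (fun y hyg => (k1 y hyg).1)
      (fun y hy hy' => (k4 y (bx_mono hsub hy) hy').1) hxg
    have h1 := norm_of_bx k5 hy
    have h2 := norm_sub_le_norm_sub_add_norm_sub (pt (a k) y) (pt (a k) (c k).2) z'
    push_cast at h1
    linarith
  · have key := Hf_out (m := nn (a k)) (r := fun p => r p k) (M := 900000 * L k) k2.isH.zero
      (fun y hy => ?_) n0 k3.le (by positivity) (fun y hy hyg hp => (k1 y hyg).2 hp hy)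
      (fun p => ?_) (fun y hy hy' => (k4 y (bx_mono hsub hy) hy').2) hxg
    · rw [← neg_div, div_le_iff₀ k3]
      linarith
    · have := k10 y hy
      obtain ⟨i, j⟩ := y
      rw [AL.mem_dia]
      simp only at this
      lia
    · have g2 := (k11 {r p k}).2
      rw [sum_singleton, lap_cut_eq n0 fun hvb => ?_] at g2
      · rw [H170.lap_AL]
        exact (abs_le.1 g2).2
      · have g5 := norm_of_bx k5 hvb
        have g6 := k8 p
        push_cast at g5
        linarith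

end

variable {l : Ultrafilter ι} (h : Pos Ω.toDom (l : Filter ι) a N r ζ c z' δ)
  (hB : ∀ᶠ k in (l : Filter ι), BD (N k) (fun p => r p k) (c k) (A k) (B k) (C k) (E k) (Hs k)
    (Hf k))
  (hL0 : ∀ᶠ k in (l : Filter ι), 0 < L k)
  (hL : ∀ᶠ k in (l : Filter ι), Ann δ (a k) (c k) (Hs k) (Hf k) (L k))

include h hB hL0 hL

theorem hl_exists {q : ℂ → ℂ} (hs : SLim l a ((Ω.D \ {z'}) \ Mk ζ w0) r v0 (fA a L c A)
    (fB a L c B) (fC a L c C) (fE a L c E) q) :
    ∃ H, HL Ω.toDom (l : Filter ι) a L ζ z' δ Hs Hf q H := by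
  have hδ := h.δ0
  have hn := H436.nn_lim h.a0
  set K : Set ℂ := Mk ζ w0 ∪ {z | |(z - z').re| ≤ δ ∧ |(z - z').im| ≤ δ} with hK
  have hKU : ∀ D : Set ℂ, D \ K = Uh D ζ z' δ := fun D => by
    ext z
    simp only [hK, Uh, Set.mem_sdiff, Set.mem_union, Set.mem_setOf_eq, Set.mem_inter_iff, not_or,
      not_and_or, not_le, and_assoc]
  have hsq : ∀ z : ℂ, |(z - z').re| ≤ δ ∧ |(z - z').im| ≤ δ → ‖z - z'‖ ≤ 2 * δ := fun z hz => by
    linarith [Complex.norm_le_abs_re_add_abs_im (z - z'), hz.1, hz.2]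
  have hb1 : ∀ z ∈ Uh Dia ζ z' δ, ∀ᶠ kx in nf (l : Filter ι) a z, Hs kx.1 kx.2 / L kx.1 ≤ 1 ∧
      -(Hf kx.1 kx.2 / L kx.1) ≤ 1 + 900000 * ∑ p, gb z (ζ p) ∧
      Hf kx.1 kx.2 / L kx.1 ≤ Hs kx.1 kx.2 / L kx.1 ∧
      hat (N kx.1) (Hs kx.1) kx.2 / L kx.1 ≤ 1 := by
    intro z hz
    have h1 : ∀ᶠ kx in nf (l : Filter ι) a z, ∀ q,
        green (dia (nn (a kx.1))) (r q kx.1) kx.2 ≤ gb z (ζ q) := eventually_all.2 fun q =>
      green_near h.a0 hn (h.hr q) (mem_dia_ev h.a0 hn (Ω.dia (h.dia q)) (h.hr q)) hz.1.1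
        ((notMem_Mk.1 hz.1.2).1 q)
    filter_upwards [out_bx h hz.2, h1,
      ev_nf_of (l := (l : Filter ι)) (a := a) (z := z) (H_ev h hB hL0 hL)] with kx k1 k2 k3
    obtain ⟨g1, g2, g3, g4⟩ := k3 kx.2 k1
    have := sum_le_sum fun q (_ : q ∈ univ) => k2 q
    exact ⟨g4.trans g1, by linarith, g3, g1⟩
  have dd : ∀ z ∈ Uh Ω.D ζ z' δ, z ∈ Uh Dia ζ z' δ := fun z hz => ⟨⟨Ω.dia hz.1.1, hz.1.2⟩, hz.2⟩
  have hbb : ∀ z ∈ Uh Ω.D ζ z' δ, ∃ M, ∀ᶠ k in (l : Filter ι),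
      |Hs k (fl (a k) z) / L k| ≤ M := by
    intro z hz
    obtain ⟨ρ, hρ, h2⟩ := (ev_nf (P := fun k x => Hs k x / L k ≤ 1 ∧
      -(Hf k x / L k) ≤ 1 + 900000 * ∑ p, gb z (ζ p) ∧ Hf k x / L k ≤ Hs k x / L k)).1
      ((hb1 z (dd z hz)).mono fun kx k1 => ⟨k1.1, k1.2.1, k1.2.2.1⟩)
    refine ⟨1 + |900000 * ∑ p, gb z (ζ p)|, ?_⟩
    filter_upwards [h2, h.apos, h.asmall (show 0 < ρ / 2 by positivity)] with k k1 k2 k3
    obtain ⟨k4, k5, k6⟩ := k1 (fl (a k) z) ((H170.pt_fl_norm k2 z).trans (by linarith))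
    rw [abs_le]
    constructor
    · linarith [le_abs_self (900000 * ∑ p, gb z (ζ p))]
    · linarith [abs_nonneg (900000 * ∑ p, gb z (ζ p))]
  have hU1 : Uh Ω.D ζ z' δ ⊆ (Ω.D \ {z'}) \ Mk ζ w0 := Uh_sub hδ
  obtain ⟨H, chs, chf, hder⟩ := H170.hlim_exists h.a0 (Uh_open Ω.op ζ z' δ) h.hr
    (v := v0) (ω := w0) (fun q => q.elim) (fun z hz => hz.1.2)
    (A := fA a L c A) (B := fB a L c B) (C := fC a L c C) (E := fE a L c E) (q := q)
    ⟨fun z hz => hs.A z (hU1 hz), fun z hz => hs.B z (hU1 hz), fun z hz => hs.C z (hU1 hz),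
      fun z hz => hs.E z (hU1 hz)⟩ (hon_all h hB hL0 _) hbb
  have hD : UData Ω.D (l : Filter ι) a (fun k x => hat (N k) (Hs k) x / L k)
      (fun k x => max (-(Hf k x / L k)) 0) K H := by
    refine ⟨inferInstance, h.a0, (Mk_finite ζ w0).isCompact.union ?_, ?_, fun z hz => ?_,
      fun z hz => ?_, fun ε hε => ?_, (hKU _).symm ▸ H170.cconv_iff.2 fun z hz => ?_,
      (hKU _).symm ▸ H170.cconv_iff.2 fun z hz => ?_⟩
    · refine (isCompact_closedBall z' (2 * δ)).of_isClosed_subset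
        ((isClosed_le (f := fun z : ℂ => |(z - z').re|) (by fun_prop) continuous_const).inter
          (isClosed_le (f := fun z : ℂ => |(z - z').im|) (by fun_prop) continuous_const))
        fun z hz => ?_
      rw [Metric.mem_closedBall, dist_eq_norm]
      exact hsq z hz
    · rintro z ((⟨p, rfl⟩ | ⟨p, -⟩) | hz)
      · exact h.dia p
      · exact p.elim
      · exact h.ball z (by linarith [hsq z hz])
    · rw [hKU] at hz
      filter_upwards [out_bx h hz.2, eventually_all.2 fun p => P144Q.A.ne_nf (h.hr p)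
        ((notMem_Mk.1 hz.1.2).1 p), ev_nf_of (l := (l : Filter ι)) (a := a) (z := z) (reg_ev h hB),
        ev_nf_of (l := (l : Filter ι)) (a := a) (z := z) hL0,
        ev_nf_of (l := (l : Filter ι)) (a := a) (z := z) hB] with kx k1 k2 k3 k4 k5
      refine ⟨?_, lap_neg (P := N kx.1) (Hf := fun y => Hf kx.1 y / L kx.1)
        (fun f hf => by rw [k5.isH.zero f hf, zero_div]) fun hx => ?_⟩
      · rw [lap_div]
        exact div_nonneg (k3 kx.2 k1).1 k4.le
      · rw [lap_div]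
        exact div_nonpos_of_nonpos_of_nonneg ((k3 kx.2 k1).2 k2 hx) k4.le
    · rw [hKU] at hz
      refine ⟨max 1 (1 + 900000 * ∑ p, gb z (ζ p)), (hb1 z hz).mono fun kx k1 => ?_⟩
      exact ⟨k1.2.2.2.trans (le_max_left _ _),
        max_le (k1.2.1.trans (le_max_right _ _)) (zero_le_one.trans (le_max_left _ _))⟩
    · filter_upwards [h.hN.sub (ε / 2) (by positivity), hB, h.apos,
        h.asmall (show 0 < ε / 8 by positivity)] with k k1 k2 k3 k4 x hx
      have out : ∀ y : Site, |y.1 - x.1| ≤ 2 → |y.2 - x.2| ≤ 2 → y ∉ N k := fun y h1 h2 hy => by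
        obtain ⟨z, hz, h3⟩ := k1 y hy
        have h4 := pt_sub_le (m := 2) k3 h1 h2
        have h5 := norm_sub_le_norm_sub_add_norm_sub (pt (a k) x) (pt (a k) y) z
        rw [norm_sub_rev] at h4
        push_cast at h4
        linarith [hx z hz]
      rw [hat_zero k2.isH out, k2.isH.zero x (out x (by simp) (by simp))]
      simp
    · refine (H170.cconv_iff.1 chs z hz).congr' ?_
      filter_upwards [h.hN.near h.a0 hz.1.1 1] with kx k1
      rw [hat_eq k1]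
    · exact (H170.cconv_iff.1 chf z hz).neg.max tendsto_const_nhds
  refine ⟨H, chs, chf, fun z hz => (hder z hz).hasFDerivAt, ⟨1, fun z hz => ?_⟩, Ω.vanU hD,
    fun F h1 h2 => Ω.bdU hD F ((hKU _).symm ▸ h1) ((hKU _).symm ▸ h2)⟩
  have := nf_neBot (l := (l : Filter ι)) h.a0 z
  exact le_of_tendsto (H170.cconv_iff.1 chs z hz) ((hb1 z (dd z hz)).mono fun kx k1 => k1.1)

end Vale.Agent.P144S.C
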